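import Vale.Agent.P061.Defs

namespace P061

open Finset Classical

variable {V : Type} [Fintype V]

/-- Greedy choice with multiplicity at most `K`: fewer than `c` vertices are saturated. -/
theorem choose_mult [Nonempty V] {ι : Type} (P : Finset ι) (Good : ι → Finset V) (K : ℕ) (c : ℝ)
    (hK : 0 < K) (hP : (P.card : ℝ) < K * c) (hG : ∀ p ∈ P, c ≤ ((Good p).card : ℝ)) :
    ∃ w : ι → V, (∀ p ∈ P, w p ∈ Good p) ∧ ∀ x, (P.filter (fun p => w p = x)).card ≤ K := by
  induction P using Finset.induction_on with
  | empty =>
    obtain ⟨v0⟩ := (inferInstance : Nonempty V)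
    exact ⟨fun _ => v0, by simp, by simp⟩
  | insert p P hp ih =>
    rw [Finset.card_insert_of_notMem hp] at hP
    push_cast at hP
    obtain ⟨w, h1, h2⟩ := ih (by linarith) (fun q hq => hG q (Finset.mem_insert_of_mem hq))
    set Sat : Finset V := univ.filter (fun x => K ≤ (P.filter (fun q => w q = x)).card) with hSat
    have hK0 : (0 : ℝ) < K := by exact_mod_cast hK
    have hsat : (K : ℝ) * Sat.card ≤ P.card := by
      have h3 : Sat.card * K ≤ P.card := by
        calc Sat.card * K = ∑ _x ∈ Sat, K := by rw [Finset.sum_const, smul_eq_mul]
          _ ≤ ∑ x ∈ Sat, (P.filter (fun q => w q = x)).card :=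
              Finset.sum_le_sum fun x hx => (Finset.mem_filter.mp hx).2
          _ ≤ ∑ x : V, (P.filter (fun q => w q = x)).card :=
              Finset.sum_le_sum_of_subset (Finset.subset_univ _)
          _ = P.card := (Finset.card_eq_sum_card_fiberwise (fun _ _ => Finset.mem_univ _)).symm
      have h4 : ((Sat.card * K : ℕ) : ℝ) ≤ P.card := by exact_mod_cast h3
      push_cast at h4
      linarith
    have hlt : (Sat.card : ℝ) < ((Good p).card : ℝ) := by
      have h3 : (K : ℝ) * Sat.card < K * c := by linarith
      have h4 : (Sat.card : ℝ) < c := lt_of_mul_lt_mul_left h3 hK0.le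
      exact h4.trans_le (hG p (Finset.mem_insert_self _ _))
    have hex : ∃ x ∈ Good p, x ∉ Sat := by
      by_contra hcon
      push Not at hcon
      have h5 : (Good p).card ≤ Sat.card := Finset.card_le_card hcon
      have h6 : ((Good p).card : ℝ) ≤ Sat.card := by exact_mod_cast h5
      linarith
    obtain ⟨x, hx, hxS⟩ := hex
    have hxK : (P.filter (fun q => w q = x)).card < K := by
      by_contra hcon
      exact hxS (Finset.mem_filter.mpr ⟨Finset.mem_univ _, not_lt.mp hcon⟩)
    refine ⟨Function.update w p x, ?_, ?_⟩
    · intro q hq
      by_cases hqp : q = p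
      · subst hqp
        rw [Function.update_self]; exact hx
      · rw [Function.update_of_ne hqp]
        exact h1 q ((Finset.mem_insert.mp hq).resolve_left hqp)
    · intro y
      have e : P.filter (fun q => Function.update w p x q = y) = P.filter (fun q => w q = y) := by
        apply Finset.filter_congr
        intro q hq
        have hqp : q ≠ p := by rintro rfl; exact hp hq
        rw [Function.update_of_ne hqp]
      rw [Finset.filter_insert, e]
      split_ifs with h
      · rw [Function.update_self] at h
        subst h
        refine (Finset.card_insert_le _ _).trans ?_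
        omega
      · exact h2 y

end P061
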