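import Vale.Agent.P061.Defs

namespace P061

open Finset Classical

variable {V : Type} [Fintype V]

theorem connected_of_cut [Nonempty V] (G : SimpleGraph V)
    (h : ∀ S : Finset V, S.Nonempty → S ≠ univ → 1 ≤ cutSize G S) : G.Connected := by
  have hpre : G.Preconnected := by
    intro a b
    by_contra hab
    have hne : (univ.filter (fun x => G.Reachable a x) : Finset V).Nonempty :=
      ⟨a, by simp⟩
    have hun : (univ.filter (fun x => G.Reachable a x) : Finset V) ≠ univ := by
      intro he
      have : b ∈ (univ.filter (fun x => G.Reachable a x) : Finset V) := by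
        rw [he]; exact Finset.mem_univ b
      exact hab (by simpa using this)
    have h1 := h _ hne hun
    unfold cutSize at h1
    obtain ⟨p, hp⟩ := Finset.card_pos.mp (Nat.lt_of_lt_of_le Nat.zero_lt_one h1)
    rw [Finset.mem_filter, Finset.mem_product, Finset.mem_compl] at hp
    obtain ⟨⟨hp1, hp2⟩, hp3⟩ := hp
    apply hp2
    rw [Finset.mem_filter] at hp1 ⊢
    exact ⟨Finset.mem_univ _, hp1.2.trans hp3.reachable⟩
  exact ⟨hpre⟩

theorem cutSize_mono (G H : SimpleGraph V) (h : G ≤ H) (S : Finset V) :
    cutSize G S ≤ cutSize H S := by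
  unfold cutSize
  apply Finset.card_le_card
  intro p hp
  rw [Finset.mem_filter] at hp ⊢
  exact ⟨hp.1, h hp.2⟩

theorem cutSize_edge (F H : SimpleGraph V) (x y : V)
    (hH : ∀ a b, H.Adj a b → F.Adj a b ∨ (a = x ∧ b = y) ∨ (a = y ∧ b = x)) (S : Finset V) :
    cutSize H S ≤ cutSize F S + 1 := by
  unfold cutSize
  have hsub : (S ×ˢ Sᶜ).filter (fun p => H.Adj p.1 p.2) ⊆
      (S ×ˢ Sᶜ).filter (fun p => F.Adj p.1 p.2) ∪ (if x ∈ S then {(x, y)} else {(y, x)}) := by
    intro p hp
    rw [Finset.mem_filter, Finset.mem_product, Finset.mem_compl] at hp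
    obtain ⟨⟨h1, h2⟩, h3⟩ := hp
    rw [Finset.mem_union, Finset.mem_filter, Finset.mem_product, Finset.mem_compl]
    rcases hH _ _ h3 with h3 | ⟨h3, h4⟩ | ⟨h3, h4⟩
    · exact Or.inl ⟨⟨h1, h2⟩, h3⟩
    · right
      have : x ∈ S := h3 ▸ h1
      rw [if_pos this, Finset.mem_singleton]
      exact Prod.ext h3 h4
    · right
      have : x ∉ S := fun hx => h2 (h4 ▸ hx)
      rw [if_neg this, Finset.mem_singleton]
      exact Prod.ext h3 h4
  have h1 := Finset.card_le_card hsub
  have h2 := Finset.card_union_le ((S ×ˢ Sᶜ).filter (fun p => F.Adj p.1 p.2))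
    (if x ∈ S then {(x, y)} else {(y, x)})
  have h3 : (if x ∈ S then {(x, y)} else {(y, x)} : Finset (V × V)).card ≤ 1 := by
    split_ifs <;> simp
  omega

theorem connect_aux (G : SimpleGraph V) (hG : G.Connected) : ∀ (n : ℕ) (F : SimpleGraph V)
    (I : Finset V), I.card ≤ n → F ≤ G → (∀ v, ∃ i ∈ I, F.Reachable i v) →
    ∃ T : SimpleGraph V, T ≤ G ∧ T.IsTree ∧
      ∀ S : Finset V, cutSize T S ≤ cutSize F S + n := by
  intro n
  induction n with
  | zero =>
    intro F I hn hF hI
    exfalso
    obtain ⟨v⟩ := hG.nonempty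
    obtain ⟨i, hi, -⟩ := hI v
    have hI0 : I = ∅ := Finset.card_eq_zero.mp (Nat.le_zero.mp hn)
    rw [hI0] at hi
    simp at hi
  | succ n ih =>
    intro F I hn hF hI
    by_cases hc : F.Connected
    · obtain ⟨T, hT, hTree⟩ := hc.exists_isTree_le
      refine ⟨T, hT.trans hF, hTree, fun S => ?_⟩
      exact (cutSize_mono T F hT S).trans (Nat.le_add_right _ _)
    · have hex : ∃ x y, G.Adj x y ∧ ¬ F.Reachable x y := by
        by_contra hno
        push Not at hno
        apply hc
        have hpre : F.Preconnected := by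
          intro a b
          obtain ⟨w⟩ := hG.preconnected a b
          induction w with
          | nil => exact SimpleGraph.Reachable.refl _
          | cons hadj _ ihw => exact (hno _ _ hadj).trans ihw
        have := hG.nonempty
        exact ⟨hpre⟩
      obtain ⟨x, y, hxy, hnr⟩ := hex
      obtain ⟨i, hi, hix⟩ := hI x
      obtain ⟨j, hj, hjy⟩ := hI y
      have hij : i ≠ j := by
        intro h
        apply hnr
        rw [h] at hix
        exact hix.symm.trans hjy
      have hle : F ≤ F ⊔ SimpleGraph.edge x y := le_sup_left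
      have hxyF : (F ⊔ SimpleGraph.edge x y).Adj x y := by
        rw [SimpleGraph.sup_adj, SimpleGraph.edge_adj]
        exact Or.inr ⟨Or.inl ⟨rfl, rfl⟩, hxy.ne⟩
      have hF' : F ⊔ SimpleGraph.edge x y ≤ G := by
        refine sup_le hF ?_
        intro a b hab
        rw [SimpleGraph.edge_adj] at hab
        rcases hab with ⟨⟨h1, h2⟩ | ⟨h1, h2⟩, -⟩
        · rw [h1, h2]; exact hxy
        · rw [h1, h2]; exact hxy.symm
      have hcard : (I.erase j).card ≤ n := by
        rw [Finset.card_erase_of_mem hj]
        omega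
      obtain ⟨T, hT, hTree, hcut⟩ := ih (F ⊔ SimpleGraph.edge x y) (I.erase j) hcard hF' (by
        intro v
        obtain ⟨k, hk, hkv⟩ := hI v
        by_cases hkj : k = j
        · refine ⟨i, Finset.mem_erase.mpr ⟨hij, hi⟩, ?_⟩
          rw [hkj] at hkv
          exact (hix.mono hle).trans (hxyF.reachable.trans ((hjy.symm.mono hle).trans
            (hkv.mono hle)))
        · exact ⟨k, Finset.mem_erase.mpr ⟨hkj, hk⟩, hkv.mono hle⟩)
      refine ⟨T, hT, hTree, fun S => ?_⟩
      have h1 := hcut S
      have h2 := cutSize_edge F (F ⊔ SimpleGraph.edge x y) x y (by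
        intro a b hab
        rw [SimpleGraph.sup_adj, SimpleGraph.edge_adj] at hab
        rcases hab with h | ⟨h, -⟩
        · exact Or.inl h
        · exact Or.inr h) S
      omega

/-- induction on `I.card`: if `F` is not connected some edge `x y` of `G` joins two components,
add it and remove one representative; finally take a spanning tree
(`SimpleGraph.Connected.exists_isTree_le`). -/
theorem connect (G F : SimpleGraph V) (hG : G.Connected) (hF : F ≤ G) (I : Finset V)
    (hI : ∀ v, ∃ i ∈ I, F.Reachable i v) :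
    ∃ T : SimpleGraph V, T ≤ G ∧ T.IsTree ∧
      ∀ S : Finset V, cutSize T S ≤ cutSize F S + I.card :=
  connect_aux G hG I.card F I le_rfl hF hI

end P061
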