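import Vale.Agent.P061.Defs

namespace P061

open Finset Classical

variable {V : Type} [Fintype V]

/-- crossing neighbours of `x` -/
noncomputable def ncr (G : SimpleGraph V) (S : Finset V) (x : V) : Finset V :=
  univ.filter (fun y => G.Adj x y ∧ ¬ (x ∈ S ↔ y ∈ S))

/-- ordered crossing pairs -/
noncomputable def pcr (G : SimpleGraph V) (S : Finset V) : Finset (V × V) :=
  univ.filter (fun p => G.Adj p.1 p.2 ∧ ¬ (p.1 ∈ S ↔ p.2 ∈ S))

theorem pcr_card (G : SimpleGraph V) (S : Finset V) : (pcr G S).card = 2 * cutSize G S := by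
  have h1 := Finset.card_filter_add_card_filter_not (s := pcr G S) (fun p => p.1 ∈ S)
  have h2 : ((pcr G S).filter (fun p => p.1 ∈ S)).card = cutSize G S := by
    unfold cutSize
    congr 1
    ext p
    simp only [pcr, Finset.mem_filter, Finset.mem_univ, true_and, Finset.mem_product,
      Finset.mem_compl]
    tauto
  have h3 : ((pcr G S).filter (fun p => ¬ p.1 ∈ S)).card = cutSize G S := by
    unfold cutSize
    refine Finset.card_bij' (fun p _ => p.swap) (fun p _ => p.swap) ?_ ?_ ?_ ?_
    · intro p hp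
      simp only [pcr, Finset.mem_filter, Finset.mem_univ, true_and] at hp
      simp only [Finset.mem_filter, Finset.mem_product, Finset.mem_compl, Prod.fst_swap,
        Prod.snd_swap]
      obtain ⟨⟨ha, hc⟩, hn⟩ := hp
      exact ⟨⟨by tauto, hn⟩, ha.symm⟩
    · intro p hp
      simp only [Finset.mem_filter, Finset.mem_product, Finset.mem_compl] at hp
      simp only [pcr, Finset.mem_filter, Finset.mem_univ, true_and, Prod.fst_swap,
        Prod.snd_swap]
      obtain ⟨⟨hs, hn⟩, ha⟩ := hp
      exact ⟨⟨ha.symm, by tauto⟩, hn⟩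
    · intro p _; exact Prod.swap_swap p
    · intro p _; exact Prod.swap_swap p
  omega

theorem sum_ncr (G : SimpleGraph V) (S : Finset V) : ∑ x, (ncr G S x).card = 2 * cutSize G S := by
  rw [← pcr_card]
  rw [Finset.card_eq_sum_card_fiberwise (s := pcr G S) (t := univ) (f := Prod.fst)
    (fun _ _ => Finset.mem_univ _)]
  refine Finset.sum_congr rfl fun x _ => ?_
  refine Finset.card_bij' (fun y _ => (x, y)) (fun p _ => p.2) ?_ ?_ ?_ ?_
  · intro y hy
    simp only [ncr, Finset.mem_filter, Finset.mem_univ, true_and] at hy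
    simp only [pcr, Finset.mem_filter, Finset.mem_univ, true_and]
    exact ⟨hy, trivial⟩
  · rintro ⟨p, q⟩ hp
    simp only [pcr, Finset.mem_filter, Finset.mem_univ, true_and] at hp
    simp only [ncr, Finset.mem_filter, Finset.mem_univ, true_and]
    obtain ⟨h1, rfl⟩ := hp
    exact h1
  · intro y _; rfl
  · rintro ⟨p, q⟩ hp
    simp only [pcr, Finset.mem_filter, Finset.mem_univ, true_and] at hp
    obtain ⟨_, rfl⟩ := hp
    rfl

theorem P3_le (G : SimpleGraph V) (S : Finset V) (a b : V) (hab : ¬ (a ∈ S ↔ b ∈ S)) :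
    P3 G a b ≤ Fintype.card V * (ncr G S a).card + 2 * cutSize G S
      + Fintype.card V * (ncr G S b).card := by
  have hsub : (univ : Finset (V × V)).filter
      (fun p => G.Adj a p.1 ∧ G.Adj p.1 p.2 ∧ G.Adj p.2 b)
      ⊆ ((ncr G S a) ×ˢ univ ∪ pcr G S) ∪ univ ×ˢ (ncr G S b) := by
    rintro ⟨x, y⟩ hp
    simp only [Finset.mem_filter, Finset.mem_univ, true_and] at hp
    obtain ⟨h1, h2, h3⟩ := hp
    simp only [ncr, pcr, Finset.mem_union, Finset.mem_product, Finset.mem_filter,
      Finset.mem_univ, true_and, and_true]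
    have h3' := h3.symm
    tauto
  unfold P3
  refine (Finset.card_le_card hsub).trans ?_
  refine (Finset.card_union_le _ _).trans ?_
  have h4 := Finset.card_union_le ((ncr G S a) ×ˢ (univ : Finset V)) (pcr G S)
  have h5 : ((ncr G S a) ×ˢ (univ : Finset V)).card = Fintype.card V * (ncr G S a).card := by
    rw [Finset.card_product, Finset.card_univ, mul_comm]
  have h6 : ((univ : Finset V) ×ˢ (ncr G S b)).card = Fintype.card V * (ncr G S b).card := by
    rw [Finset.card_product, Finset.card_univ]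
  rw [h5, pcr_card] at h4
  rw [h6]
  omega

theorem sum_fiber (G : SimpleGraph V) {ι : Type} (J : Finset ι) (a : ι → V) (K1 : ℕ)
    (ha : ∀ x, (J.filter (fun i => a i = x)).card ≤ K1) (S : Finset V) :
    ∑ i ∈ J, (ncr G S (a i)).card ≤ K1 * (2 * cutSize G S) := by
  rw [← Finset.sum_fiberwise_of_maps_to (s := J) (t := univ) (g := a)
    (fun _ _ => Finset.mem_univ _)]
  calc ∑ x, ∑ i ∈ J.filter (fun i => a i = x), (ncr G S (a i)).card
      = ∑ x, (J.filter (fun i => a i = x)).card * (ncr G S x).card := by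
        refine Finset.sum_congr rfl fun x _ => ?_
        rw [Finset.sum_congr rfl (g := fun _ => (ncr G S x).card) (fun i hi => by
          rw [(Finset.mem_filter.mp hi).2]), Finset.sum_const, smul_eq_mul]
    _ ≤ ∑ x, K1 * (ncr G S x).card :=
        Finset.sum_le_sum fun x _ => Nat.mul_le_mul_right _ (ha x)
    _ = K1 * (2 * cutSize G S) := by rw [← Finset.mul_sum, sum_ncr]

/-- every walk `a - x - y - b` of a crossing item has a crossing edge `a x`, `x y` or `y b` -/
theorem cross_count (G : SimpleGraph V) {ι : Type} (J : Finset ι) (a b : ι → V) (K1 K2 : ℕ)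
    (ha : ∀ x, (J.filter (fun i => a i = x)).card ≤ K1)
    (hb : ∀ x, (J.filter (fun i => b i = x)).card ≤ K2) (c : ℝ)
    (hc : ∀ i ∈ J, c ≤ P3 G (a i) (b i)) (S : Finset V) :
    c * ((J.filter (fun i => ¬ (a i ∈ S ↔ b i ∈ S))).card : ℝ)
      ≤ 2 * (cutSize G S : ℝ) *
        (K1 * Fintype.card V + K2 * Fintype.card V + J.card) := by
  set X := J.filter (fun i => ¬ (a i ∈ S ↔ b i ∈ S)) with hX
  have hXJ : X ⊆ J := Finset.filter_subset _ _
  have h1 : c * (X.card : ℝ) ≤ ((∑ i ∈ X, P3 G (a i) (b i) : ℕ) : ℝ) := by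
    push_cast
    calc c * (X.card : ℝ) = ∑ _i ∈ X, c := by rw [Finset.sum_const, nsmul_eq_mul, mul_comm]
      _ ≤ ∑ i ∈ X, (P3 G (a i) (b i) : ℝ) := Finset.sum_le_sum fun i hi => hc i (hXJ hi)
  have h2 : ∑ i ∈ X, P3 G (a i) (b i)
      ≤ 2 * cutSize G S * (K1 * Fintype.card V + K2 * Fintype.card V + J.card) := by
    calc ∑ i ∈ X, P3 G (a i) (b i)
        ≤ ∑ i ∈ X, (Fintype.card V * (ncr G S (a i)).card + 2 * cutSize G S
            + Fintype.card V * (ncr G S (b i)).card) :=
          Finset.sum_le_sum fun i hi => P3_le G S _ _ (Finset.mem_filter.mp hi).2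
      _ ≤ ∑ i ∈ J, (Fintype.card V * (ncr G S (a i)).card + 2 * cutSize G S
            + Fintype.card V * (ncr G S (b i)).card) :=
          Finset.sum_le_sum_of_subset hXJ
      _ = Fintype.card V * ∑ i ∈ J, (ncr G S (a i)).card + J.card * (2 * cutSize G S)
            + Fintype.card V * ∑ i ∈ J, (ncr G S (b i)).card := by
          rw [Finset.sum_add_distrib, Finset.sum_add_distrib, Finset.mul_sum, Finset.mul_sum,
            Finset.sum_const, smul_eq_mul]
      _ ≤ Fintype.card V * (K1 * (2 * cutSize G S)) + J.card * (2 * cutSize G S)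
            + Fintype.card V * (K2 * (2 * cutSize G S)) := by
          have e1 := sum_fiber G J a K1 ha S
          have e2 := sum_fiber G J b K2 hb S
          gcongr
      _ = 2 * cutSize G S * (K1 * Fintype.card V + K2 * Fintype.card V + J.card) := by ring
  refine h1.trans ?_
  have h3 : ((∑ i ∈ X, P3 G (a i) (b i) : ℕ) : ℝ)
      ≤ ((2 * cutSize G S * (K1 * Fintype.card V + K2 * Fintype.card V + J.card) : ℕ) : ℝ) := by
    exact_mod_cast h2
  refine h3.trans (le_of_eq ?_)
  push_cast
  ring

end P061
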