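import Mathlib

/-! P061: dense simple graphs. -/

namespace P061

open Finset Classical

variable {V : Type} [Fintype V]

/-- number of edges of `G` with exactly one endpoint in `S` -/
noncomputable def cutSize (G : SimpleGraph V) (S : Finset V) : ℕ :=
  ((S ×ˢ Sᶜ).filter (fun p => G.Adj p.1 p.2)).card

/-- neighbours -/
noncomputable def nb (G : SimpleGraph V) (v : V) : Finset V := univ.filter (fun x => G.Adj v x)

/-- number of walks `a - x - y - b` -/
noncomputable def P3 (G : SimpleGraph V) (a b : V) : ℕ :=
  ((univ : Finset (V × V)).filter (fun p => G.Adj a p.1 ∧ G.Adj p.1 p.2 ∧ G.Adj p.2 b)).card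

end P061
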