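import Vale.Agent.P061.Defs

namespace P061

open Finset Classical

variable {V : Type} [Fintype V]

/-- adjacency as a real number -/
noncomputable def adjR (G : SimpleGraph V) (a b : V) : ℝ := if G.Adj a b then 1 else 0

theorem adjR_nonneg (G : SimpleGraph V) (a b : V) : 0 ≤ adjR G a b := by
  unfold adjR; split_ifs <;> norm_num

theorem adjR_le_one (G : SimpleGraph V) (a b : V) : adjR G a b ≤ 1 := by
  unfold adjR; split_ifs <;> norm_num

theorem adjR_comm (G : SimpleGraph V) (a b : V) : adjR G a b = adjR G b a := by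
  unfold adjR
  simp only [G.adj_comm a b]

theorem sum_adjR (G : SimpleGraph V) (a : V) : ∑ y, adjR G a y = ((nb G a).card : ℝ) := by
  simp [adjR, nb]

theorem P3_eq (G : SimpleGraph V) (a b : V) :
    (P3 G a b : ℝ) = ∑ x, ∑ y, adjR G a x * (adjR G x y * adjR G y b) := by
  have h : (P3 G a b : ℝ) = ∑ p : V × V,
      (if G.Adj a p.1 ∧ G.Adj p.1 p.2 ∧ G.Adj p.2 b then (1 : ℝ) else 0) := by
    simp [P3]
  rw [h, Fintype.sum_prod_type]
  refine Finset.sum_congr rfl fun x _ => Finset.sum_congr rfl fun y _ => ?_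
  simp only [adjR]
  by_cases h1 : G.Adj a x <;> by_cases h2 : G.Adj x y <;> by_cases h3 : G.Adj y b <;>
    simp [h1, h2, h3]

theorem P3_ge (G : SimpleGraph V) (W : Finset V) (u w : V) (hu : W ⊆ nb G u) :
    ∑ y, adjR G w y * ∑ x ∈ W, adjR G x y ≤ (P3 G u w : ℝ) := by
  rw [P3_eq]
  have h1 : ∑ y, adjR G w y * ∑ x ∈ W, adjR G x y
      = ∑ x ∈ W, ∑ y, adjR G u x * (adjR G x y * adjR G y w) := by
    simp_rw [Finset.mul_sum]
    rw [Finset.sum_comm]
    refine Finset.sum_congr rfl fun x hx => Finset.sum_congr rfl fun y _ => ?_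
    have : adjR G u x = 1 := by
      have := hu hx
      simp only [nb, Finset.mem_filter, Finset.mem_univ, true_and] at this
      simp [adjR, this]
    rw [this, adjR_comm G w y]
    ring
  rw [h1]
  refine Finset.sum_le_univ_sum_of_nonneg fun x => Finset.sum_nonneg fun y _ => ?_
  exact mul_nonneg (adjR_nonneg _ _ _) (mul_nonneg (adjR_nonneg _ _ _) (adjR_nonneg _ _ _))

/-- `e(w) := ∑_{y ~ w} |N(y) ∩ W| ≤ |W| n`; `∑_{w ∈ W} e(w) = ∑_y |N(y) ∩ W|^2 ≥ δ^2 |W|^2 n`;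
so at least `(δ^2/2) |W|` of the `w` have `e(w) ≥ (δ^2/2) |W| n`, and `P3 G u w ≥ e(w)` as
`W ⊆ N(u)`. -/
theorem good_many (G : SimpleGraph V) (δ : ℝ) (hδ : 0 < δ)
    (hdeg : ∀ v, δ * Fintype.card V ≤ ((nb G v).card : ℝ)) (W : Finset V) (u v : V)
    (hW : δ ^ 2 / 2 * Fintype.card V ≤ (W.card : ℝ)) (hu : W ⊆ nb G u) (hv : W ⊆ nb G v) :
    δ ^ 4 / 4 * Fintype.card V ≤ ((W.filter (fun w =>
      δ ^ 4 / 4 * (Fintype.card V : ℝ) ^ 2 ≤ P3 G u w ∧
      δ ^ 4 / 4 * (Fintype.card V : ℝ) ^ 2 ≤ P3 G v w)).card : ℝ) := by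
  set n : ℝ := (Fintype.card V : ℝ) with hn
  set k : ℝ := (W.card : ℝ) with hk
  have hn0 : 0 < n := by
    rw [hn]
    exact_mod_cast Fintype.card_pos_iff.2 ⟨u⟩
  have hk0 : 0 < k := lt_of_lt_of_le (by positivity) hW
  let c : V → ℝ := fun y => ∑ x ∈ W, adjR G x y
  let e : V → ℝ := fun w => ∑ y, adjR G w y * c y
  have hc0 : ∀ y, 0 ≤ c y := fun y => Finset.sum_nonneg fun x _ => adjR_nonneg _ _ _
  have hck : ∀ y, c y ≤ k := by
    intro y
    calc c y ≤ ∑ _x ∈ W, (1 : ℝ) := Finset.sum_le_sum fun x _ => adjR_le_one _ _ _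
      _ = k := by simp [hk]
  have he : ∀ w, e w ≤ n * k := by
    intro w
    calc e w ≤ ∑ _y : V, k := Finset.sum_le_sum fun y _ => by
          have h1 := adjR_le_one G w y
          have h2 := adjR_nonneg G w y
          have h3 := hck y
          have h4 := hc0 y
          nlinarith
      _ = n * k := by simp [hn]
  have hsum : ∑ w ∈ W, e w = ∑ y, c y ^ 2 := by
    simp only [e]
    rw [Finset.sum_comm]
    refine Finset.sum_congr rfl fun y _ => ?_
    rw [← Finset.sum_mul, sq]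
  have h1 : k * (δ * n) ≤ ∑ y, c y := by
    simp only [c]
    rw [Finset.sum_comm]
    simp_rw [sum_adjR]
    calc k * (δ * n) = ∑ _x ∈ W, δ * n := by simp [hk]
      _ ≤ ∑ x ∈ W, ((nb G x).card : ℝ) := Finset.sum_le_sum fun x _ => hdeg x
  have h2 : (∑ y, c y) ^ 2 ≤ n * ∑ y, c y ^ 2 := by
    have := sq_sum_le_card_mul_sum_sq (s := (univ : Finset V)) (f := c)
    simpa [hn] using this
  have h3 : δ ^ 2 * k ^ 2 * n ≤ ∑ w ∈ W, e w := by
    rw [hsum]
    have h4 : (k * (δ * n)) ^ 2 ≤ n * ∑ y, c y ^ 2 :=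
      (pow_le_pow_left₀ (by positivity) h1 2).trans h2
    have h5 : n * (δ ^ 2 * k ^ 2 * n) ≤ n * ∑ y, c y ^ 2 := by
      calc n * (δ ^ 2 * k ^ 2 * n) = (k * (δ * n)) ^ 2 := by ring
        _ ≤ _ := h4
    exact le_of_mul_le_mul_left h5 hn0
  set Wg : Finset V := W.filter (fun w => δ ^ 2 / 2 * k * n ≤ e w) with hWg
  have h4 : ∑ w ∈ W, e w ≤ (Wg.card : ℝ) * (n * k) + k * (δ ^ 2 / 2 * k * n) := by
    rw [← Finset.sum_filter_add_sum_filter_not W (fun w => δ ^ 2 / 2 * k * n ≤ e w)]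
    apply add_le_add
    · calc ∑ w ∈ Wg, e w ≤ ∑ _w ∈ Wg, n * k := Finset.sum_le_sum fun w _ => he w
        _ = (Wg.card : ℝ) * (n * k) := by simp
    · calc ∑ w ∈ W.filter (fun w => ¬ δ ^ 2 / 2 * k * n ≤ e w), e w
          ≤ ∑ _w ∈ W.filter (fun w => ¬ δ ^ 2 / 2 * k * n ≤ e w), δ ^ 2 / 2 * k * n :=
            Finset.sum_le_sum fun w hw => (not_le.1 (Finset.mem_filter.1 hw).2).le
        _ = ((W.filter (fun w => ¬ δ ^ 2 / 2 * k * n ≤ e w)).card : ℝ)
              * (δ ^ 2 / 2 * k * n) := by simp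
        _ ≤ k * (δ ^ 2 / 2 * k * n) := by
            apply mul_le_mul_of_nonneg_right _ (by positivity)
            rw [hk]
            exact_mod_cast Finset.card_le_card (Finset.filter_subset _ _)
  have h5 : δ ^ 2 / 2 * k ≤ (Wg.card : ℝ) := by
    have h6 : (n * k) * (δ ^ 2 / 2 * k) ≤ (n * k) * (Wg.card : ℝ) := by nlinarith
    exact le_of_mul_le_mul_left h6 (by positivity)
  have h6 : δ ^ 4 / 4 * n ≤ (Wg.card : ℝ) := by
    have : δ ^ 2 / 2 * (δ ^ 2 / 2 * n) ≤ δ ^ 2 / 2 * k :=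
      mul_le_mul_of_nonneg_left hW (by positivity)
    nlinarith
  refine h6.trans ?_
  have hsub : Wg ⊆ W.filter (fun w =>
      δ ^ 4 / 4 * n ^ 2 ≤ P3 G u w ∧ δ ^ 4 / 4 * n ^ 2 ≤ P3 G v w) := by
    intro w hw
    rw [hWg, Finset.mem_filter] at hw
    have h7 : δ ^ 4 / 4 * n ^ 2 ≤ e w := by
      refine le_trans ?_ hw.2
      have : δ ^ 2 / 2 * n * (δ ^ 2 / 2 * n) ≤ δ ^ 2 / 2 * n * k :=
        mul_le_mul_of_nonneg_left hW (by positivity)
      nlinarith
    rw [Finset.mem_filter]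
    exact ⟨hw.1, h7.trans (P3_ge G W u w hu), h7.trans (P3_ge G W v w hv)⟩
  exact_mod_cast Finset.card_le_card hsub

end P061
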