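import Vale.Agent.P061.Defs

namespace P061

open Finset Classical

variable {V : Type}

/-- successor in a list -/
noncomputable def nxl : List V → V → Option V
  | [], _ => none
  | [_], _ => none
  | a :: b :: t, u => if u = a then some b else nxl (b :: t) u

theorem nxl_mem : ∀ (l : List V) (u v : V), nxl l u = some v → u ∈ l ∧ v ∈ l.tail
  | [], u, v, h => by simp [nxl] at h
  | [a], u, v, h => by simp [nxl] at h
  | a :: b :: t, u, v, h => by
    rw [nxl] at h
    split_ifs at h with hu
    · cases h
      subst hu
      simp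
    · obtain ⟨h1, h2⟩ := nxl_mem (b :: t) u v h
      refine ⟨List.mem_cons_of_mem _ h1, ?_⟩
      simp only [List.tail_cons] at h2 ⊢
      exact List.mem_cons_of_mem _ h2

theorem nxl_rel (R : V → V → Prop) : ∀ (l : List V), l.IsChain R → ∀ (u v : V),
    nxl l u = some v → R u v
  | [], _, u, v, h => by simp [nxl] at h
  | [a], _, u, v, h => by simp [nxl] at h
  | a :: b :: t, hc, u, v, h => by
    rw [nxl] at h
    rw [List.isChain_cons_cons] at hc
    split_ifs at h with hu
    · cases h
      subst hu
      exact hc.1
    · exact nxl_rel R (b :: t) hc.2 u v h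

theorem nxl_ne : ∀ (l : List V), l.Nodup → ∀ (u v : V), nxl l u = some v → u ≠ v
  | [], _, u, v, h => by simp [nxl] at h
  | [a], _, u, v, h => by simp [nxl] at h
  | a :: b :: t, hc, u, v, h => by
    rw [nxl] at h
    rw [List.nodup_cons] at hc
    split_ifs at h with hu
    · cases h
      subst hu
      rintro rfl
      exact hc.1 (by simp)
    · exact nxl_ne (b :: t) hc.2 u v h

theorem nxl_inj : ∀ (l : List V), l.Nodup → ∀ (u u' v : V), nxl l u = some v →
    nxl l u' = some v → u = u'
  | [], _, u, u', v, h, _ => by simp [nxl] at h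
  | [a], _, u, u', v, h, _ => by simp [nxl] at h
  | a :: b :: t, hc, u, u', v, h, h' => by
    rw [nxl] at h h'
    rw [List.nodup_cons] at hc
    have hb := (List.nodup_cons.mp hc.2).1
    by_cases hu : u = a
    · by_cases hu' : u' = a
      · rw [hu, hu']
      · rw [if_pos hu] at h
        rw [if_neg hu'] at h'
        cases h
        have := (nxl_mem (b :: t) u' b h').2
        exact absurd this hb
    · by_cases hu' : u' = a
      · rw [if_neg hu] at h
        rw [if_pos hu'] at h'
        cases h'
        have := (nxl_mem (b :: t) u b h).2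
        exact absurd this hb
      · rw [if_neg hu] at h
        rw [if_neg hu'] at h'
        exact nxl_inj (b :: t) hc.2 u u' v h h'

theorem nxl_reach : ∀ (t : List V) (a : V), (a :: t).Nodup → ∀ v ∈ a :: t,
    Relation.ReflTransGen (fun x y => nxl (a :: t) x = some y) a v
  | [], a, _, v, hv => by
    simp only [List.mem_cons, List.not_mem_nil, or_false] at hv
    rw [hv]
  | b :: t, a, hc, v, hv => by
    rcases List.mem_cons.mp hv with rfl | hv'
    · exact Relation.ReflTransGen.refl
    · rw [List.nodup_cons] at hc
      have ih := nxl_reach t b hc.2 v hv'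
      have h1 : nxl (a :: b :: t) a = some b := by rw [nxl, if_pos rfl]
      refine Relation.ReflTransGen.head h1 ?_
      refine Relation.ReflTransGen.mono ?_ _ _ ih
      intro x y hxy
      have hx := (nxl_mem (b :: t) x y hxy).1
      have hne : x ≠ a := fun h => hc.1 (h ▸ hx)
      rw [nxl, if_neg hne]
      exact hxy

variable [Fintype V]

theorem longest (R : V → V → Prop) (s : Finset V) (x0 : V) (hx0 : x0 ∈ s) :
    ∃ (a : V) (t : List V), (a :: t).Nodup ∧ (a :: t).IsChain R ∧ (∀ x ∈ a :: t, x ∈ s) ∧
      ∀ x ∈ s, x ∉ a :: t → ¬ R x a := by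
  set P : ℕ → Prop := fun k => ∃ l : List V, l.Nodup ∧ l.IsChain R ∧ (∀ x ∈ l, x ∈ s) ∧
    l.length = k with hP
  have h1 : P 1 := ⟨[x0], by simp, by simp, by simpa using hx0, rfl⟩
  have hb : ∀ k, P k → k ≤ Fintype.card V := by
    rintro k ⟨l, hn, -, -, rfl⟩
    exact hn.length_le_card
  have hg := Nat.findGreatest_spec (hb 1 h1) h1
  have hg1 : 1 ≤ Nat.findGreatest P (Fintype.card V) := Nat.le_findGreatest (hb 1 h1) h1
  obtain ⟨l, hn, hc, hs, hl⟩ := hg
  cases l with
  | nil =>
    simp at hl
    omega
  | cons a t =>
    refine ⟨a, t, hn, hc, hs, ?_⟩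
    intro x hx hxl hR
    have h2 : P ((a :: t).length + 1) := by
      refine ⟨x :: a :: t, ?_, ?_, ?_, rfl⟩
      · rw [List.nodup_cons]
        exact ⟨hxl, hn⟩
      · rw [List.isChain_cons_cons]
        exact ⟨hR, hc⟩
      · intro y hy
        rcases List.mem_cons.mp hy with rfl | hy
        · exact hx
        · exact hs y hy
    have := Nat.le_findGreatest (hb _ h2) h2
    omega

theorem path_cover_aux (R : V → V → Prop) (hsym : ∀ u v, R u v → R v u) :
    ∀ (k : ℕ) (s : Finset V), s.card ≤ k →
    ∃ (nx : V → Option V) (I : Finset V), I ⊆ s ∧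
      (∀ u v, nx u = some v → u ∈ s ∧ v ∈ s) ∧
      (∀ u v, nx u = some v → R u v ∧ u ≠ v) ∧
      (∀ u u' v, nx u = some v → nx u' = some v → u = u') ∧
      (∀ u ∈ I, ∀ v ∈ I, u ≠ v → ¬ R u v) ∧
      (∀ v ∈ s, ∃ i ∈ I, Relation.ReflTransGen (fun a b => nx a = some b) i v) := by
  intro k
  induction k with
  | zero =>
    intro s hs
    have hs' : s = ∅ := by
      rw [← Finset.card_eq_zero]; omega
    subst hs'
    exact ⟨fun _ => none, ∅, by simp, by simp, by simp, by simp, by simp, by simp⟩
  | succ k ih =>
    intro s hs
    by_cases hse : s = ∅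
    · subst hse
      exact ⟨fun _ => none, ∅, by simp, by simp, by simp, by simp, by simp, by simp⟩
    · obtain ⟨x0, hx0⟩ := Finset.nonempty_iff_ne_empty.mpr hse
      obtain ⟨a, t, hn, hc, hmem, hmax⟩ := longest R s x0 hx0
      have has : a ∈ s := hmem a (by simp)
      set s' : Finset V := s.filter (fun x => x ∉ a :: t) with hs'
      have hss : s' ⊆ s := Finset.filter_subset _ _
      have hcard : s'.card ≤ k := by
        have : s'.card < s.card := by
          apply Finset.card_lt_card
          rw [Finset.ssubset_iff_of_subset hss]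
          exact ⟨a, has, by simp [hs']⟩
        omega
      obtain ⟨nx', I', hI', hnm, hnr, hni, hind, hreach⟩ := ih s' hcard
      have hnot : ∀ x ∈ s', x ∉ a :: t := fun x hx => (Finset.mem_filter.mp hx).2
      refine ⟨fun u => if u ∈ a :: t then nxl (a :: t) u else nx' u, insert a I', ?_, ?_, ?_, ?_,
        ?_, ?_⟩
      · intro x hx
        rcases Finset.mem_insert.mp hx with rfl | hx
        · exact has
        · exact hss (hI' hx)
      · intro u v h
        dsimp only at h
        split_ifs at h with hu
        · obtain ⟨h1, h2⟩ := nxl_mem _ _ _ h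
          exact ⟨hmem u h1, hmem v (List.mem_of_mem_tail h2)⟩
        · obtain ⟨h1, h2⟩ := hnm u v h
          exact ⟨hss h1, hss h2⟩
      · intro u v h
        dsimp only at h
        split_ifs at h with hu
        · exact ⟨nxl_rel R _ hc u v h, nxl_ne _ hn u v h⟩
        · exact hnr u v h
      · intro u u' v h h'
        dsimp only at h h'
        split_ifs at h h' with hu hu' hu'
        · exact nxl_inj _ hn u u' v h h'
        · have h1 := List.mem_of_mem_tail (nxl_mem _ _ _ h).2
          exact absurd h1 (hnot v (hnm u' v h').2)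
        · have h1 := List.mem_of_mem_tail (nxl_mem _ _ _ h').2
          exact absurd h1 (hnot v (hnm u v h).2)
        · exact hni u u' v h h'
      · intro u hu v hv huv
        rcases Finset.mem_insert.mp hu with hu1 | hu1
        · rcases Finset.mem_insert.mp hv with hv1 | hv1
          · exact absurd (hu1.trans hv1.symm) huv
          · rw [hu1]
            intro hR
            exact hmax v (hss (hI' hv1)) (hnot v (hI' hv1)) (hsym _ _ hR)
        · rcases Finset.mem_insert.mp hv with hv1 | hv1
          · rw [hv1]
            exact hmax u (hss (hI' hu1)) (hnot u (hI' hu1))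
          · exact hind u hu1 v hv1 huv
      · intro v hv
        by_cases hvl : v ∈ a :: t
        · refine ⟨a, Finset.mem_insert_self _ _, ?_⟩
          refine Relation.ReflTransGen.mono ?_ _ _ (nxl_reach t a hn v hvl)
          intro x y hxy
          have hx := (nxl_mem _ x y hxy).1
          dsimp only
          rw [if_pos hx]
          exact hxy
        · obtain ⟨i, hi, hr⟩ := hreach v (Finset.mem_filter.mpr ⟨hv, hvl⟩)
          refine ⟨i, Finset.mem_insert_of_mem hi, ?_⟩
          refine Relation.ReflTransGen.mono ?_ _ _ hr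
          intro x y hxy
          have hx := hnot x (hnm x y hxy).1
          dsimp only
          rw [if_neg hx]
          exact hxy

/-- Greedy longest paths: `nx` is the successor on the paths, `I` the set of their heads.
(Induction on `s`, statement for subsets `s`; take a longest duplicate-free chain in `s`; its head
has no `R`-neighbour in `s` outside the chain.) -/
theorem path_cover (R : V → V → Prop) (hsym : ∀ u v, R u v → R v u) :
    ∃ (nx : V → Option V) (I : Finset V),
      (∀ u v, nx u = some v → R u v ∧ u ≠ v) ∧
      (∀ u u' v, nx u = some v → nx u' = some v → u = u') ∧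
      (∀ u ∈ I, ∀ v ∈ I, u ≠ v → ¬ R u v) ∧
      (∀ v, ∃ i ∈ I, Relation.ReflTransGen (fun a b => nx a = some b) i v) := by
  obtain ⟨nx, I, -, -, h1, h2, h3, h4⟩ :=
    path_cover_aux R hsym (univ : Finset V).card univ le_rfl
  exact ⟨nx, I, h1, h2, h3, fun v => h4 v (Finset.mem_univ v)⟩

end P061
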