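import Vale.Agent.P061.Indep
import Vale.Agent.P061.Good
import Vale.Agent.P061.PathCover
import Vale.Agent.P061.Choose
import Vale.Agent.P061.Count
import Vale.Agent.P061.Connect

namespace P061

open Finset Classical

theorem main (δ : ℝ) (hδ : 0 < δ) : ∃ C : ℝ, 0 < C ∧
    ∀ (V : Type) [Fintype V] (G : SimpleGraph V) (k : ℕ), 2 ≤ Fintype.card V → 1 ≤ k →
      (∀ v, δ * Fintype.card V ≤ ((nb G v).card : ℝ)) →
      (∀ S : Finset V, S.Nonempty → S ≠ univ → k ≤ cutSize G S) →
      ∃ T : SimpleGraph V, T ≤ G ∧ T.IsTree ∧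
        ∀ S : Finset V, S.Nonempty → S ≠ univ →
          (cutSize T S : ℝ) ≤ C / k * cutSize G S := by
  set K : ℕ := ⌈4 / δ ^ 4⌉₊ + 1 with hK
  refine ⟨16 * ((K : ℝ) + 2) / δ ^ 4 + 2 / δ ^ 2, by positivity, ?_⟩
  intro V _ G k hn hk hdeg hcut
  set n : ℝ := (Fintype.card V : ℝ) with hndef
  have hn2 : (2 : ℝ) ≤ n := by rw [hndef]; exact_mod_cast hn
  have hn0 : 0 < n := by linarith
  have hk0 : (0 : ℝ) < k := by exact_mod_cast hk
  have : Nonempty V := Fintype.card_pos_iff.mp (by omega)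
  -- k ≤ n
  have hkn : (k : ℝ) ≤ n := by
    obtain ⟨v⟩ := (inferInstance : Nonempty V)
    have h1 := hcut {v} (Finset.singleton_nonempty v) (by
      intro h
      have := congrArg Finset.card h
      rw [Finset.card_singleton, Finset.card_univ] at this
      omega)
    have h2 : cutSize G {v} ≤ Fintype.card V := by
      unfold cutSize
      refine (Finset.card_filter_le _ _).trans ?_
      rw [Finset.card_product, Finset.card_singleton, one_mul]
      exact Finset.card_le_univ _
    rw [hndef]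
    exact_mod_cast h1.trans h2
  -- the relation
  set R : V → V → Prop := fun u v => δ ^ 2 / 2 * n ≤ ((nb G u ∩ nb G v).card : ℝ) with hR
  obtain ⟨nx, I, h1, h2, h3, h4⟩ := path_cover R (by
    intro u v h
    simp only [hR] at h ⊢
    rwa [Finset.inter_comm])
  have hI : (I.card : ℝ) ≤ 2 / δ ^ 2 := by
    apply indep_bound G δ hδ hdeg I
    intro u hu v hv huv
    have := h3 u hu v hv huv
    simp only [hR, not_le] at this
    exact this
  set P : Finset V := univ.filter (fun u => (nx u).isSome) with hP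
  set vv : V → V := fun u => (nx u).getD u with hvv
  have hnx : ∀ u ∈ P, nx u = some (vv u) := by
    intro u hu
    rw [hP, Finset.mem_filter] at hu
    obtain ⟨v, hv⟩ := Option.isSome_iff_exists.mp hu.2
    simp [hvv, hv]
  set c : ℝ := δ ^ 4 / 4 * n ^ 2 with hc
  set Good : V → Finset V := fun u => (nb G u ∩ nb G (vv u)).filter (fun w =>
      δ ^ 4 / 4 * (Fintype.card V : ℝ) ^ 2 ≤ P3 G u w ∧
      δ ^ 4 / 4 * (Fintype.card V : ℝ) ^ 2 ≤ P3 G (vv u) w) with hGood
  have hPcard : (P.card : ℝ) ≤ n := by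
    rw [hndef]; exact_mod_cast Finset.card_le_univ _
  obtain ⟨w, hw1, hw2⟩ := choose_mult P Good K (δ ^ 4 / 4 * n) (by omega) (by
      have hK4 : 4 / δ ^ 4 < K := by
        have := Nat.le_ceil (4 / δ ^ 4)
        rw [hK]; push_cast
        linarith
      have h5 : 1 < K * (δ ^ 4 / 4) := by
        rw [div_lt_iff₀ (by positivity)] at hK4
        linarith
      calc (P.card : ℝ) ≤ n := hPcard
        _ = 1 * n := (one_mul n).symm
        _ < K * (δ ^ 4 / 4) * n := mul_lt_mul_of_pos_right h5 hn0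
        _ = K * (δ ^ 4 / 4 * n) := by ring) (by
      intro u hu
      exact good_many G δ hδ hdeg (nb G u ∩ nb G (vv u)) u (vv u)
        (h1 u (vv u) (hnx u hu)).1 Finset.inter_subset_left Finset.inter_subset_right)
  have hwG : ∀ u ∈ P, G.Adj u (w u) ∧ G.Adj (vv u) (w u) ∧ c ≤ P3 G u (w u) ∧
      c ≤ P3 G (vv u) (w u) := by
    intro u hu
    have h5 := hw1 u hu
    simp only [hGood, Finset.mem_filter, Finset.mem_inter, nb, Finset.mem_univ, true_and] at h5
    exact ⟨h5.1.1, h5.1.2, h5.2.1, h5.2.2⟩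
  -- items
  set J : Finset (V × Bool) := P ×ˢ univ with hJ
  set a : V × Bool → V := fun i => if i.2 then vv i.1 else i.1 with ha
  set b : V × Bool → V := fun i => w i.1 with hb
  have hJP : ∀ i ∈ J, i.1 ∈ P := fun i hi => (Finset.mem_product.mp hi).1
  have hab : ∀ i ∈ J, G.Adj (a i) (b i) ∧ c ≤ P3 G (a i) (b i) := by
    rintro ⟨u, t⟩ hi
    obtain ⟨g1, g2, g3, g4⟩ := hwG u (hJP _ hi)
    cases t
    · exact ⟨by simpa [ha, hb] using g1, by simpa [ha, hb] using g3⟩
    · exact ⟨by simpa [ha, hb] using g2, by simpa [ha, hb] using g4⟩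
  have hacard : ∀ x, (J.filter (fun i => a i = x)).card ≤ 2 := by
    intro x
    have hsub : J.filter (fun i => a i = x)
        ⊆ (J.filter (fun i => a i = x ∧ i.2 = false)) ∪ (J.filter (fun i => a i = x ∧ i.2 = true)) := by
      rintro ⟨u, t⟩ hi
      rw [Finset.mem_filter] at hi
      rw [Finset.mem_union, Finset.mem_filter, Finset.mem_filter]
      cases t
      · exact Or.inl ⟨hi.1, hi.2, rfl⟩
      · exact Or.inr ⟨hi.1, hi.2, rfl⟩
    have c1 : (J.filter (fun i => a i = x ∧ i.2 = false)).card ≤ 1 := by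
      rw [Finset.card_le_one]
      rintro ⟨u, t⟩ hi ⟨u', t'⟩ hi'
      rw [Finset.mem_filter] at hi hi'
      obtain ⟨_, e1, e2⟩ := hi
      obtain ⟨_, e1', e2'⟩ := hi'
      simp only at e2 e2'
      subst e2 e2'
      have f1 : u = x := by simpa [ha] using e1
      have f2 : u' = x := by simpa [ha] using e1'
      rw [f1, f2]
    have c2 : (J.filter (fun i => a i = x ∧ i.2 = true)).card ≤ 1 := by
      rw [Finset.card_le_one]
      rintro ⟨u, t⟩ hi ⟨u', t'⟩ hi'
      rw [Finset.mem_filter] at hi hi'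
      obtain ⟨m1, e1, e2⟩ := hi
      obtain ⟨m2, e1', e2'⟩ := hi'
      simp only at e2 e2'
      subst e2 e2'
      have f1 : vv u = x := by simpa [ha] using e1
      have f2 : vv u' = x := by simpa [ha] using e1'
      have g1 := hnx u (hJP _ m1)
      have g2 := hnx u' (hJP _ m2)
      rw [f1] at g1
      rw [f2] at g2
      rw [h2 u u' x g1 g2]
    calc (J.filter (fun i => a i = x)).card ≤ _ := Finset.card_le_card hsub
      _ ≤ _ := Finset.card_union_le _ _
      _ ≤ 1 + 1 := add_le_add c1 c2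
  have hbcard : ∀ x, (J.filter (fun i => b i = x)).card ≤ 2 * K := by
    intro x
    have e : J.filter (fun i => b i = x) = (P.filter (fun u => w u = x)) ×ˢ (univ : Finset Bool) := by
      ext ⟨u, t⟩
      simp [hJ, hb]
    rw [e, Finset.card_product]
    have := hw2 x
    simp only [Finset.card_univ, Fintype.card_bool]
    omega
  -- the graph F
  let F : SimpleGraph V :=
    { Adj := fun p q => ∃ i ∈ J, (a i = p ∧ b i = q) ∨ (a i = q ∧ b i = p)
      symm := ⟨by
        rintro p q ⟨i, hi, h | h⟩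
        · exact ⟨i, hi, Or.inr h⟩
        · exact ⟨i, hi, Or.inl h⟩⟩
      loopless := ⟨by
        rintro p ⟨i, hi, ⟨e1, e2⟩ | ⟨e1, e2⟩⟩
        · exact (hab i hi).1.ne (e1.trans e2.symm)
        · exact (hab i hi).1.ne (e1.trans e2.symm)⟩ }
  have hFG : F ≤ G := by
    rintro p q ⟨i, hi, ⟨e1, e2⟩ | ⟨e1, e2⟩⟩
    · rw [← e1, ← e2]; exact (hab i hi).1
    · rw [← e1, ← e2]; exact (hab i hi).1.symm
  have hstep : ∀ p q, nx p = some q → F.Reachable p q := by
    intro p q hpq
    have hp : p ∈ P := by rw [hP, Finset.mem_filter]; exact ⟨Finset.mem_univ _, by rw [hpq]; rfl⟩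
    have hq : vv p = q := by simp [hvv, hpq]
    have e1 : F.Adj p (w p) := ⟨(p, false), by simp [hJ, hp], Or.inl ⟨by simp [ha], rfl⟩⟩
    have e2 : F.Adj (w p) q := ⟨(p, true), by simp [hJ, hp], Or.inr ⟨by simp [ha, hq], rfl⟩⟩
    exact e1.reachable.trans e2.reachable
  have hIF : ∀ v, ∃ i ∈ I, F.Reachable i v := by
    intro v
    obtain ⟨i, hi, hiv⟩ := h4 v
    refine ⟨i, hi, ?_⟩
    induction hiv with
    | refl => exact SimpleGraph.Reachable.refl _
    | tail _ hbc ih => exact ih.trans (hstep _ _ hbc)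
  have hG : G.Connected := connected_of_cut G fun S hS hS' => hk.trans (hcut S hS hS')
  obtain ⟨T, hT1, hT2, hT3⟩ := connect G F hG hFG I hIF
  refine ⟨T, hT1, hT2, fun S hS hS' => ?_⟩
  have hcutS := hcut S hS hS'
  set X : Finset (V × Bool) := J.filter (fun i => ¬ (a i ∈ S ↔ b i ∈ S)) with hX
  have hFX : cutSize F S ≤ X.card := by
    have hsub : (S ×ˢ Sᶜ).filter (fun p => F.Adj p.1 p.2)
        ⊆ X.image (fun i => if a i ∈ S then (a i, b i) else (b i, a i)) := by
      rintro ⟨p, q⟩ hpq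
      rw [Finset.mem_filter, Finset.mem_product, Finset.mem_compl] at hpq
      obtain ⟨⟨hp, hq⟩, i, hi, ⟨e1, e2⟩ | ⟨e1, e2⟩⟩ := hpq
      · simp only at hp hq e1 e2
        refine Finset.mem_image.mpr ⟨i, ?_, ?_⟩
        · rw [hX, Finset.mem_filter]
          refine ⟨hi, ?_⟩
          rw [e1, e2]
          tauto
        · rw [if_pos (by rw [e1]; exact hp), e1, e2]
      · simp only at hp hq e1 e2
        refine Finset.mem_image.mpr ⟨i, ?_, ?_⟩
        · rw [hX, Finset.mem_filter]
          refine ⟨hi, ?_⟩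
          rw [e1, e2]
          tauto
        · rw [if_neg (by rw [e1]; exact hq), e1, e2]
    have h9 := (Finset.card_le_card hsub).trans Finset.card_image_le
    have h10 : cutSize F S = ((S ×ˢ Sᶜ).filter (fun p => F.Adj p.1 p.2)).card := by
      unfold cutSize
      congr!
    rw [h10]
    exact h9
  have hcount := cross_count G J a b 2 (2 * K) hacard hbcard c (fun i hi => (hab i hi).2) S
  have hJcard : (J.card : ℝ) ≤ 2 * n := by
    have : J.card = P.card * 2 := by
      rw [hJ, Finset.card_product]; simp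
    rw [this]; push_cast; linarith
  set cG : ℝ := (cutSize G S : ℝ) with hcG
  have hcG0 : 0 ≤ cG := by rw [hcG]; positivity
  have hcGk : (k : ℝ) ≤ cG := by rw [hcG]; exact_mod_cast hcutS
  have hXle : (X.card : ℝ) ≤ 16 * ((K : ℝ) + 2) / δ ^ 4 * (cG / n) := by
    have h5 : c * (X.card : ℝ) ≤ 2 * cG * (2 * n + 2 * K * n + 2 * n) := by
      refine hcount.trans ?_
      apply mul_le_mul_of_nonneg_left _ (by positivity)
      push_cast
      linarith
    have hc0 : 0 < c := by rw [hc]; positivity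
    have h6 : (X.card : ℝ) ≤ 2 * cG * (2 * n + 2 * K * n + 2 * n) / c := by
      rw [le_div_iff₀ hc0]; linarith
    refine h6.trans (le_of_eq ?_)
    rw [hc]
    field_simp
    ring
  have hfin : (cutSize T S : ℝ) ≤ X.card + I.card := by
    exact_mod_cast (hT3 S).trans (Nat.add_le_add_right hFX _)
  have e1 : cG / n ≤ cG / k := div_le_div_of_nonneg_left hcG0 hk0 hkn
  have e2 : 1 ≤ cG / k := by rw [one_le_div hk0]; exact hcGk
  calc (cutSize T S : ℝ) ≤ X.card + I.card := hfin
    _ ≤ 16 * ((K : ℝ) + 2) / δ ^ 4 * (cG / n) + 2 / δ ^ 2 := add_le_add hXle hI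
    _ ≤ 16 * ((K : ℝ) + 2) / δ ^ 4 * (cG / k) + 2 / δ ^ 2 * (cG / k) := by
        apply add_le_add
        · exact mul_le_mul_of_nonneg_left e1 (by positivity)
        · exact le_mul_of_one_le_right (by positivity) e2
    _ = (16 * ((K : ℝ) + 2) / δ ^ 4 + 2 / δ ^ 2) / k * cG := by
        field_simp

end P061
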