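import Vale.Agent.P061.Defs

namespace P061

open Finset Classical

variable {V : Type} [Fintype V]

/-- Cauchy-Schwarz on the numbers of neighbours in `I` -/
theorem indep_bound (G : SimpleGraph V) (δ : ℝ) (hδ : 0 < δ)
    (hdeg : ∀ v, δ * Fintype.card V ≤ ((nb G v).card : ℝ)) (I : Finset V)
    (hI : ∀ u ∈ I, ∀ v ∈ I, u ≠ v →
      ((nb G u ∩ nb G v).card : ℝ) < δ ^ 2 / 2 * Fintype.card V) :
    (I.card : ℝ) ≤ 2 / δ ^ 2 := by
  set n : ℝ := (Fintype.card V : ℝ) with hn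
  set t : ℝ := (I.card : ℝ) with ht
  have hn0 : 0 ≤ n := Nat.cast_nonneg _
  have ht0 : 0 ≤ t := Nat.cast_nonneg _
  let A : V → V → ℝ := fun u y => if y ∈ nb G u then 1 else 0
  have hA : ∀ u, ∑ y, A u y = ((nb G u).card : ℝ) := by
    intro u
    simp [A]
  have hAA : ∀ u v, ∑ y, A u y * A v y = ((nb G u ∩ nb G v).card : ℝ) := by
    intro u v
    have : ∀ y, A u y * A v y = if y ∈ nb G u ∩ nb G v then 1 else 0 := by
      intro y
      simp only [A, Finset.mem_inter]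
      by_cases h1 : y ∈ nb G u <;> by_cases h2 : y ∈ nb G v <;> simp [h1, h2]
    simp_rw [this]
    rw [Finset.sum_ite_mem, Finset.univ_inter]
    simp
  have h1 : t * (δ * n) ≤ ∑ y, ∑ u ∈ I, A u y := by
    rw [Finset.sum_comm]
    simp_rw [hA]
    calc t * (δ * n) = ∑ _u ∈ I, δ * n := by simp [ht]
      _ ≤ ∑ u ∈ I, ((nb G u).card : ℝ) := Finset.sum_le_sum fun u _ => hdeg u
  have h2 : (∑ y, ∑ u ∈ I, A u y) ^ 2 ≤ n * ∑ y, (∑ u ∈ I, A u y) ^ 2 := by
    have := sq_sum_le_card_mul_sum_sq (s := (univ : Finset V)) (f := fun y => ∑ u ∈ I, A u y)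
    simpa [hn] using this
  have h3 : ∑ y, (∑ u ∈ I, A u y) ^ 2 = ∑ u ∈ I, ∑ v ∈ I, ((nb G u ∩ nb G v).card : ℝ) := by
    simp_rw [sq, Finset.sum_mul_sum]
    rw [Finset.sum_comm]
    refine Finset.sum_congr rfl fun u _ => ?_
    rw [Finset.sum_comm]
    exact Finset.sum_congr rfl fun v _ => hAA u v
  have h4 : ∑ u ∈ I, ∑ v ∈ I, ((nb G u ∩ nb G v).card : ℝ)
      ≤ ∑ u ∈ I, ∑ v ∈ I, ((if u = v then n else 0) + δ ^ 2 / 2 * n) := by
    refine Finset.sum_le_sum fun u hu => Finset.sum_le_sum fun v hv => ?_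
    by_cases h : u = v
    · rw [if_pos h]
      have h5 : ((nb G u ∩ nb G v).card : ℝ) ≤ n := by
        rw [hn]
        exact_mod_cast Finset.card_le_univ _
      have : 0 ≤ δ ^ 2 / 2 * n := by positivity
      linarith
    · rw [if_neg h, zero_add]
      exact (hI u hu v hv h).le
  have h5 : ∑ u ∈ I, ∑ v ∈ I, ((if u = v then n else 0) + δ ^ 2 / 2 * n)
      = t * n + t * (t * (δ ^ 2 / 2 * n)) := by
    have : ∀ u ∈ I, ∑ v ∈ I, ((if u = v then n else 0) + δ ^ 2 / 2 * n)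
        = n + t * (δ ^ 2 / 2 * n) := by
      intro u hu
      rw [Finset.sum_add_distrib, Finset.sum_ite_eq, if_pos hu]
      simp [ht]
    rw [Finset.sum_congr rfl this]
    simp only [Finset.sum_const, nsmul_eq_mul, ← ht]
    ring
  rcases hn0.eq_or_lt with h0 | h0
  · -- empty graph
    have : IsEmpty V := by
      rw [← Fintype.card_eq_zero_iff]
      have h00 : (Fintype.card V : ℝ) = 0 := by rw [← hn]; exact h0.symm
      exact_mod_cast h00
    have hI0 : I = ∅ := Finset.eq_empty_of_isEmpty I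
    have : t = 0 := by rw [ht, hI0]; simp
    rw [this]
    positivity
  · rcases ht0.eq_or_lt with h6 | h6
    · rw [← h6]; positivity
    · have h7 : (t * (δ * n)) ^ 2 ≤ n * (t * n + t * (t * (δ ^ 2 / 2 * n))) := by
        calc (t * (δ * n)) ^ 2 ≤ (∑ y, ∑ u ∈ I, A u y) ^ 2 :=
              pow_le_pow_left₀ (by positivity) h1 2
          _ ≤ n * ∑ y, (∑ u ∈ I, A u y) ^ 2 := h2
          _ ≤ n * (t * n + t * (t * (δ ^ 2 / 2 * n))) := by
              apply mul_le_mul_of_nonneg_left _ hn0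
              rw [h3, ← h5]
              exact h4
      rw [le_div_iff₀ (by positivity)]
      have h8 : (t * n ^ 2) * (t * δ ^ 2) ≤ (t * n ^ 2) * 2 := by nlinarith
      exact le_of_mul_le_mul_left h8 (by positivity)

end P061
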